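import Vale.Agent.Lib.P068.Main2

open Set Matroid

namespace Vale.Agent.Results.P068.RepeatedCountableSums

/-- Packing/covering for countable families, on an arbitrary common ground set `E`, whose
members occur infinitely often and are direct sums of a matroid with only countable circuits
and a matroid with only countable cocircuits. -/
theorem result {α : Type*} {ι : Type*} [Countable ι] (E : Set α) (M : ι → Matroid α)
    (hE : ∀ i, (M i).E = E)
    (hsum : ∀ i, ∃ (F C : Matroid α) (h : Disjoint F.E C.E), M i = F.disjointSum C h ∧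
      (∀ K, F.IsCircuit K → K.Countable) ∧ (∀ K, C.IsCocircuit K → K.Countable))
    (hrep : ∀ i, {j | M j = M i}.Infinite) :
    ∃ P C : Set α, P ∪ C = E ∧ Disjoint P C ∧ ∃ S I : ι → Set α,
      (∀ i, S i ⊆ P) ∧ (∀ i, I i ⊆ C) ∧ Pairwise (fun i j => Disjoint (S i) (S j)) ∧
      (∀ i, ((M i) ↾ P).closure (S i) = P) ∧ (∀ i, (((M i)✶ ↾ C)✶).Indep (I i)) ∧
      ⋃ i, I i = C :=
  Vale.Agent.Lib.P068.pc_of_repeated_countable_sums E M hE hsum hrep

end Vale.Agent.Results.P068.RepeatedCountableSums
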